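import Mathlib

namespace Vale.Agent.P252

/-- The partial derivative of `f` in the `i`-th coordinate direction. -/
noncomputable def pd {n : ℕ} (i : Fin n) (f : (Fin n → ℝ) → ℝ) (x : Fin n → ℝ) : ℝ :=
  fderiv ℝ f x (Pi.single i 1)

/-- The Hessian matrix of `f` at `x`. -/
noncomputable def hess {n : ℕ} (f : (Fin n → ℝ) → ℝ) (x : Fin n → ℝ) :
    Matrix (Fin n) (Fin n) ℝ :=
  Matrix.of fun i j => pd i (pd j f) x

/-- The function `w = (det D²u)^(-(n+1)/(n+2))`. -/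
noncomputable def wfun {n : ℕ} (u : (Fin n → ℝ) → ℝ) (x : Fin n → ℝ) : ℝ :=
  (hess u x).det ^ (-(((n : ℝ) + 1) / ((n : ℝ) + 2)))

/-- The affine maximal equation on all of `ℝⁿ`: `∑ Uⁱʲ ∂ᵢⱼ w = 0` with
`Uⁱʲ = det (D²u) (D²u)⁻¹ᵢⱼ`. -/
def AffineMaximal {n : ℕ} (u : (Fin n → ℝ) → ℝ) : Prop :=
  ∀ x, ∑ i, ∑ j, ((hess u x).det * (hess u x)⁻¹ i j) * hess (wfun u) x i j = 0

/-- `u` is a polynomial of degree at most two. -/
def IsQuadratic {n : ℕ} (u : (Fin n → ℝ) → ℝ) : Prop :=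
  ∃ (A : Matrix (Fin n) (Fin n) ℝ) (b : Fin n → ℝ) (c : ℝ),
    ∀ x, u x = (1 / 2) * (∑ i, ∑ j, A i j * x i * x j) + ∑ i, b i * x i + c

end Vale.Agent.P252
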